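import Vale.Agent.P064.Kernels

namespace Vale.Agent.Results.P064.SecondKahnKalai

open Vale.Agent.P064

/-- The second Kahn-Kalai conjecture `p_c = O(pE * log n)`, and `pTildeE = O(pE * log n)`. -/
theorem result : ∃ C : ℝ, 0 < C ∧ ∀ n : ℕ, 2 ≤ n → ∀ H : Finset (Sym2 (Fin n)),
    (∀ e ∈ H, ¬ e.IsDiag) → H.Nonempty →
      pc H ≤ C * Real.log n * pE H ∧ pTildeE H ≤ C * Real.log n * pE H := by
  refine ⟨1024 * 64 ^ 14 * 26, by positivity, fun n hn H hloop hH => ?_⟩
  have hlog : 0 < Real.log n := Real.log_pos (by exact_mod_cast (show 1 < n by omega))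
  have hone : ∀ F ⊆ H, 1 / 2 ≤ ((copies F).card : ℝ) * (1:ℝ) ^ F.card := by
    intro F _
    have h2 : (1:ℝ) ≤ ((copies F).card : ℝ) := by
      exact_mod_cast Finset.card_pos.mpr ⟨_, copies_mem_self F⟩
    rw [one_pow, mul_one]; linarith
  have hC : (0:ℝ) < 1024 * 64 ^ 14 * 26 * Real.log n := by positivity
  constructor
  · rw [← div_le_iff₀' hC]
    unfold pE
    refine le_csInf ⟨1, zero_le_one, le_rfl, hone⟩ ?_
    rintro p ⟨h0, h1, hp⟩
    rw [div_le_iff₀' hC]
    unfold pc
    refine le_trans (csInf_le ⟨0, fun r hr => hr.1⟩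
      ⟨le_min zero_le_one (by positivity), min_le_left _ _,
        prContain_single_log hn H hloop hH h0 hp⟩) (min_le_right _ _)
  · rw [← div_le_iff₀' hC]
    unfold pE
    refine le_csInf ⟨1, zero_le_one, le_rfl, hone⟩ ?_
    rintro p ⟨h0, h1, hp⟩
    rw [div_le_iff₀' hC]
    unfold pTildeE
    refine le_trans (csInf_le ⟨0, fun r hr => hr.1⟩
      ⟨le_min zero_le_one (by positivity), min_le_left _ _, tilde_admissible hn H hH h0 hp⟩)
      ((min_le_right _ _).trans ?_)
    exact mul_le_mul_of_nonneg_right (mul_le_mul_of_nonneg_right (by norm_num) hlog.le) h0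

end Vale.Agent.Results.P064.SecondKahnKalai
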